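import Crest.Agent.X262.Drop30.Defs
import Crest.Agent.X262.Drop30.Spl
import Crest.Agent.X262.Node22.Red

/-!
# Row 262, GEN (helper42), part 1: the reduction of the line to two lines

* `PR p f g` : `g` is the coefficientwise reduction of `f`;
* `coeff_g1`, `coeff_g2`, `eval_eq` : the two sides of a form;
* `Mt p a t ρ y b₁ b₂ u` : the point `y` of the line specialises to the point `u` of one of the two
  lines; `exists_mt`, `exists_mt'` : every point specialises, every point is a specialisation;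
* `exists_pair`, `exists_lift` : the lattice of integral forms.
-/

set_option autoImplicit false
set_option linter.unusedSectionVars false

noncomputable section

namespace Crest.Agent.X262.Gen42

open Crest.Agent.X277 Crest.Agent.X277.BD Crest.Agent.X262.Drop30 Polynomial
open Crest.Agent.X262.Bub96 (hv)

section Alg

variable {K L : Type} [Field K] [Field L] {a t ρ : K} {M N : ℕ} {σ : K[X]}

theorem coeff_sc (a ρ : K) (f : K[X]) (l : ℕ) :
    (sc a ρ f).coeff l = (taylor a f).coeff l * ρ ^ l := by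
  rw [← comp_C_mul_X_coeff, taylor_apply, comp_assoc, sc_apply]
  simp [add_comm]

theorem coeff_g1' (a t : K) (M : ℕ) (f : K[X]) (l : ℕ) :
    (g1 a t M f).coeff l = if l ≤ M then (sc a t f).coeff l / t ^ M else 0 := by
  simp [g1, finsetSum_coeff, coeff_monomial]

theorem coeff_g1 (a t : K) (M : ℕ) (f : K[X]) (l : ℕ) :
    (g1 a t M f).coeff l = if l ≤ M then (taylor a f).coeff l * t ^ l / t ^ M else 0 := by
  rw [coeff_g1', coeff_sc]

theorem coeff_div (f : K[X]) (M l : ℕ) : (f /ₘ X ^ M).coeff l = f.coeff (l + M) := by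
  have h1 := degree_modByMonic_lt f (monic_X_pow M)
  rw [degree_X_pow] at h1
  conv_rhs => rw [← modByMonic_add_div f (X ^ M), coeff_add, coeff_X_pow_mul,
    coeff_eq_zero_of_degree_lt (h1.trans_le (by exact_mod_cast Nat.le_add_left M l)), zero_add]

theorem coeff_g2' (a ρ : K) (M : ℕ) (f : K[X]) (l : ℕ) :
    (g2 a ρ M f).coeff l = (ρ ^ M)⁻¹ * (sc a ρ f).coeff (l + M) := by
  rw [g2, coeff_C_mul, coeff_div]

theorem coeff_g2 (hρ : ρ ≠ 0) (a : K) (M : ℕ) (f : K[X]) (l : ℕ) :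
    (g2 a ρ M f).coeff l = (taylor a f).coeff (l + M) * ρ ^ l := by
  rw [coeff_g2', coeff_sc, pow_add]
  field_simp

theorem natDegree_g1 (a t : K) (M : ℕ) (f : K[X]) : (g1 a t M f).natDegree ≤ M :=
  natDegree_le_iff_coeff_eq_zero.2 fun l hl => by rw [coeff_g1, if_neg (not_le.2 hl)]

theorem natDegree_g2 (hρ : ρ ≠ 0) (a : K) (h : σ.natDegree ≤ M + N) :
    (g2 a ρ M σ).natDegree ≤ N :=
  natDegree_le_iff_coeff_eq_zero.2 fun l hl => by
    rw [coeff_g2 hρ, coeff_eq_zero_of_natDegree_lt (by rw [natDegree_taylor]; omega), zero_mul]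

theorem node_eq (ht : t ≠ 0) (hρ : ρ ≠ 0) (a : K) (M : ℕ) (f : K[X]) :
    (g1 a t M f).coeff M = (g2 a ρ M f).coeff 0 := by
  rw [coeff_g1, coeff_g2 hρ, if_pos le_rfl, zero_add, pow_zero, mul_one,
    mul_div_cancel_right₀ _ (pow_ne_zero _ ht)]

theorem top_eq (hρ : ρ ≠ 0) (a : K) (h : σ.natDegree ≤ M + N) :
    (g2 a ρ M σ).coeff N = ρ ^ N * σ.coeff (M + N) := by
  have h1 := coeff_sc_top (a := a) one_ne_zero h
  rw [coeff_sc, one_pow, mul_one, mul_one] at h1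
  rw [coeff_g2 hρ, add_comm, h1, mul_comm]

theorem g1_C_mul (a t c : K) (M : ℕ) (f : K[X]) : g1 a t M (C c * f) = C c * g1 a t M f := by
  ext l
  rw [coeff_C_mul, coeff_g1', coeff_g1', map_mul, sc_C, coeff_C_mul]
  split_ifs
  · rw [mul_div_assoc]
  · rw [mul_zero]

theorem g2_C_mul (a ρ c : K) (M : ℕ) (f : K[X]) : g2 a ρ M (C c * f) = C c * g2 a ρ M f := by
  ext l
  rw [coeff_C_mul, coeff_g2', coeff_g2', map_mul, sc_C, coeff_C_mul, mul_left_comm]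

theorem map_sc (φ : K →+* L) (a ρ : K) (f : K[X]) :
    (sc a ρ f).map φ = sc (φ a) (φ ρ) (f.map φ) := by
  simp [sc_apply, map_comp]

theorem map_g1 (φ : K →+* L) (a t : K) (M : ℕ) (f : K[X]) :
    (g1 a t M f).map φ = g1 (φ a) (φ t) M (f.map φ) := by
  ext l
  rw [coeff_map, coeff_g1', coeff_g1', ← map_sc, coeff_map]
  split_ifs <;> simp

theorem map_g2 (φ : K →+* L) (a ρ : K) (M : ℕ) (f : K[X]) :
    (g2 a ρ M f).map φ = g2 (φ a) (φ ρ) M (f.map φ) := by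
  ext l
  rw [coeff_map, coeff_g2', coeff_g2', ← map_sc, coeff_map]
  simp

/-- a form in terms of its two sides -/
theorem eval_eq (ht : t ≠ 0) (hρ : ρ ≠ 0) (a : K) (M : ℕ) (σ : K[X]) (z : K) :
    σ.eval (a + z) = t ^ M * (g1 a t M σ).eval (z / t) +
      z ^ M * ((g2 a ρ M σ).eval (z / ρ) - (g2 a ρ M σ).coeff 0) := by
  have h : taylor a σ = C (t ^ M) * (g1 a t M σ).comp (C t⁻¹ * X) +
      X ^ M * ((g2 a ρ M σ).comp (C ρ⁻¹ * X) - C ((g2 a ρ M σ).coeff 0)) := by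
    ext l
    rw [coeff_add, coeff_C_mul, coeff_X_pow_mul', comp_C_mul_X_coeff, coeff_sub,
      comp_C_mul_X_coeff, coeff_C, coeff_g1, coeff_g2 hρ, coeff_g2 hρ]
    rcases lt_trichotomy l M with h | rfl | h
    · rw [if_pos h.le, if_neg (not_le.2 h), inv_pow, add_zero]
      field_simp
    · simp only [le_refl, if_true, Nat.sub_self, zero_add, inv_pow, pow_zero, mul_one, sub_self,
        add_zero]
      field_simp
    · rw [if_neg (not_le.2 h), if_pos h.le, if_neg (by omega), Nat.sub_add_cancel h.le, inv_pow ρ,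
        zero_mul, mul_zero, zero_add, sub_zero]
      field_simp
  rw [add_comm a, ← taylor_eval, h]
  simp [eval_comp, div_eq_inv_mul]

end Alg

variable {K E : Type} [Field K] [Algebra ℂ K] [Field E] [Algebra ℂ E] {p : Pl ℂ K ℂ E}
  {a t ρ x y : K} {M N : ℕ} {σ f : K[X]} {g τ₁ τ₂ : E[X]}

theorem r_congr (hy : y ∈ p.V.1) (h : p.V.v (x - y) < 1) : x ∈ p.V.1 ∧ p.r x = p.r y := by
  have h1 := RZ.le_one_iff.1 h.le
  rw [← sub_add_cancel x y]
  exact ⟨add_mem h1 hy, by rw [Pl.r_add h1 hy, (Pl.r_eq_zero h1).2 h, zero_add]⟩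

/-- coefficientwise reduction -/
def PR (p : Pl ℂ K ℂ E) (f : K[X]) (g : E[X]) : Prop :=
  ∀ l, f.coeff l ∈ p.V.1 ∧ p.r (f.coeff l) = g.coeff l

theorem PR.le (h : PR p f g) : Le p.V.v f 1 := fun l => RZ.le_one_iff.2 (h l).1

theorem PR.natDegree_le (h : PR p f g) : g.natDegree ≤ f.natDegree :=
  natDegree_le_iff_coeff_eq_zero.2 fun l hl => by
    rw [← (h l).2, coeff_eq_zero_of_natDegree_lt hl, Pl.r_zero]

theorem PR.eval (h : PR p f g) (hx : x ∈ p.V.1) :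
    f.eval x ∈ p.V.1 ∧ p.r (f.eval x) = g.eval (p.r x) := by
  refine ⟨RZ.le_one_iff.1 (h.le.eval (RZ.le_one_iff.2 hx)), ?_⟩
  rw [eval_eq_sum_range, eval_eq_sum_range' (Nat.lt_succ_of_le h.natDegree_le),
    Node22.r_sum _ fun l _ => mul_mem (h l).1 (pow_mem hx l)]
  exact Finset.sum_congr rfl fun l _ => by
    rw [Pl.r_mul (h l).1 (pow_mem hx l), Pl.r_pow hx, (h l).2]

theorem exists_pr (h : Le p.V.v f 1) : ∃ g, PR p f g :=
  ⟨∑ l ∈ Finset.range (f.natDegree + 1), monomial l (p.r (f.coeff l)), fun l =>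
    ⟨RZ.le_one_iff.1 (h l), by
      simp only [finsetSum_coeff, coeff_monomial, Finset.sum_ite_eq', Finset.mem_range]
      split_ifs with h1
      · rfl
      · rw [coeff_eq_zero_of_natDegree_lt (by omega), Pl.r_zero]⟩⟩

theorem top_est {γ : Type*} [LinearOrderedCommGroupWithZero γ] {v : Valuation K γ}
    (h : Le v f 1) (hd : f.natDegree ≤ N) (hx : 1 < v x) :
    v ((x ^ N)⁻¹ * f.eval x - f.coeff N) < 1 := by
  have h0 : v x ≠ 0 := (zero_lt_one.trans hx).ne'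
  have h0' : x ≠ 0 := by simpa using h0
  have h1 := (h.sub ((le_X_pow N).C_mul (f.coeff N) |>.mono (by simpa using h N))).eval_out_lt
    one_ne_zero (degree_low (monic_X_pow N) (natDegree_X_pow N) hd) hx
  rw [show (x ^ N)⁻¹ * f.eval x - f.coeff N =
    (x ^ N)⁻¹ * (f - C (f.coeff N) * X ^ N).eval x by simp; field_simp, map_mul, map_inv₀, map_pow,
    inv_mul_lt_one₀ (pow_pos (zero_lt_iff.2 h0) _)]
  simpa using h1

/-- the point `y` specialises to the point `u` -/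
def Mt (p : Pl ℂ K ℂ E) (a t ρ : K) (y : Option K) (b₁ b₂ : K) (u : Option E ⊕ Option E) : Prop :=
  b₁ ≠ 0 ∧ b₂ ≠ 0 ∧ ∀ (M N : ℕ) (σ : K[X]) (τ₁ τ₂ : E[X]), σ.natDegree ≤ M + N →
    PR p (g1 a t M σ) τ₁ → PR p (g2 a ρ M σ) τ₂ →
    b₁ ^ M * b₂ ^ N * hv (M + N) σ y ∈ p.V.1 ∧
      p.r (b₁ ^ M * b₂ ^ N * hv (M + N) σ y) = u.elim (hv M τ₁) (hv N τ₂)

/-- the two radii -/
structure Rd (p : Pl ℂ K ℂ E) (t ρ : K) : Prop where
  ne : t ≠ 0
  lt : p.V.v t < 1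
  eq : p.V.v ρ = 1

namespace Rd

theorem ne' (h : Rd p t ρ) : ρ ≠ 0 := RZ.ne_zero_iff.1 (h.eq ▸ one_ne_zero)

theorem node (h : Rd p t ρ) (h1 : PR p (g1 a t M σ) τ₁) (h2 : PR p (g2 a ρ M σ) τ₂) :
    τ₁.coeff M = τ₂.coeff 0 := by
  rw [← (h1 M).2, ← (h2 0).2, node_eq h.ne h.ne']

theorem mt_in (h : Rd p t ρ) (a : K) (hx : x ∈ p.V.1) :
    Mt p a t ρ (some (a + t * x)) t⁻¹ 1 (.inl (some (p.r x))) := by
  refine ⟨inv_ne_zero h.ne, one_ne_zero, fun M N σ τ₁ τ₂ _ h1 h2 => ?_⟩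
  have h3 := h1.eval hx
  have h4 := h2.le.eval_sub one_ne_zero (u := t * x / ρ) (by
    rw [map_div₀, h.eq, div_one, map_mul]
    exact (mul_le_of_le_one_right' (RZ.le_one_iff.2 hx)).trans_lt h.lt)
  refine (r_congr h3.1 ?_).imp_right fun h5 => h5.trans h3.2
  rw [hv_some, eval_eq h.ne h.ne' a M, mul_div_cancel_left₀ _ h.ne,
    show ∀ A B : K, t⁻¹ ^ M * 1 ^ N * (t ^ M * A + (t * x) ^ M * B) - A = x ^ M * B from
      fun A B => by have := h.ne; rw [mul_pow, inv_pow]; field_simp; ring, map_mul, map_pow]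
  exact (mul_le_of_le_one_left' (pow_le_one' (RZ.le_one_iff.2 hx) M)).trans_lt h4

theorem est (h : Rd p t ρ) (h1 : PR p (g1 a t M σ) τ₁) (hx : p.V.v t < p.V.v x) :
    p.V.v ((ρ * x)⁻¹ ^ M * σ.eval (a + ρ * x) - (g2 a ρ M σ).eval x) < 1 := by
  have h0 : x ≠ 0 := RZ.ne_zero_iff.1 (zero_le.trans_lt hx).ne'
  have h4 := top_est h1.le (natDegree_g1 a t M σ) (x := ρ * x / t) (by
    rwa [map_div₀, map_mul, h.eq, one_mul, one_lt_div₀ (RZ.pos h.ne)])
  rw [eval_eq h.ne h.ne' a M, mul_div_cancel_left₀ _ h.ne', ← node_eq h.ne h.ne']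
  convert h4 using 2
  have := h.ne
  have := h.ne'
  rw [div_pow, inv_pow]
  field_simp
  ring

theorem mt_out (h : Rd p t ρ) (a : K) (hx : x ∈ p.V.1) (hx' : p.V.v t < p.V.v x) :
    Mt p a t ρ (some (a + ρ * x)) (ρ * x)⁻¹ 1 (.inr (some (p.r x))) := by
  have h0 : x ≠ 0 := RZ.ne_zero_iff.1 (zero_le.trans_lt hx').ne'
  refine ⟨inv_ne_zero (mul_ne_zero h.ne' h0), one_ne_zero, fun M N σ τ₁ τ₂ _ h1 h2 => ?_⟩
  have h3 := h2.eval hx
  refine (r_congr h3.1 ?_).imp_right fun h5 => h5.trans h3.2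
  rw [one_pow, mul_one]
  exact h.est h1 hx'

theorem mt_far (h : Rd p t ρ) (a : K) (hx : 1 < p.V.v x) :
    Mt p a t ρ (some (a + ρ * x)) (ρ * x)⁻¹ x⁻¹ (.inr none) := by
  have h0 : x ≠ 0 := RZ.ne_zero_iff.1 (zero_le.trans_lt hx).ne'
  refine ⟨inv_ne_zero (mul_ne_zero h.ne' h0), inv_ne_zero h0, fun M N σ τ₁ τ₂ hd h1 h2 => ?_⟩
  refine (r_congr (h2 N).1 ?_).imp_right fun h5 => h5.trans (h2 N).2
  have h3 := h.est h1 (h.lt.trans hx)
  have h4 := top_est h2.le (natDegree_g2 h.ne' a hd) hx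
  rw [hv_some, show ∀ A B D : K, (ρ * x)⁻¹ ^ M * x⁻¹ ^ N * A - D =
    x⁻¹ ^ N * ((ρ * x)⁻¹ ^ M * A - B) + ((x ^ N)⁻¹ * B - D) from fun A B D => by
      rw [inv_pow x]; ring]
  refine p.V.v.map_add_lt ?_ h4
  rw [map_mul, map_pow, map_inv₀]
  exact (mul_le_of_le_one_left' (pow_le_one' (inv_le_one_of_one_le₀ hx.le) N)).trans_lt h3

theorem mt_inf (h : Rd p t ρ) (a : K) : Mt p a t ρ none 1 ρ (.inr none) := by
  refine ⟨one_ne_zero, h.ne', fun M N σ τ₁ τ₂ hd _ h2 => ?_⟩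
  rw [one_pow, one_mul, hv_none, ← top_eq h.ne' a hd]
  exact h2 N

theorem mt_node (h : Rd p t ρ) {y : Option K} {b₁ b₂ : K}
    (h1 : Mt p a t ρ y b₁ b₂ (.inr (some 0))) : Mt p a t ρ y b₁ b₂ (.inl none) :=
  ⟨h1.1, h1.2.1, fun M N σ τ₁ τ₂ hd h2 h3 => (h1.2.2 M N σ τ₁ τ₂ hd h2 h3).imp_right fun h4 =>
    h4.trans ((coeff_zero_eq_eval_zero τ₂).symm.trans (h.node h2 h3).symm)⟩

/-- every point specialises -/
theorem exists_mt (h : Rd p t ρ) (a : K) (y : Option K) : ∃ b₁ b₂ u, Mt p a t ρ y b₁ b₂ u := by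
  rcases y with _ | y
  · exact ⟨_, _, _, h.mt_inf a⟩
  have e : y = a + ρ * ((y - a) / ρ) := by rw [mul_div_cancel₀ _ h.ne', add_sub_cancel]
  rcases le_or_gt (p.V.v (y - a)) (p.V.v t) with h1 | h1
  · have h2 := h.mt_in a ((RZ.le_iff h.ne).1 h1)
    rw [mul_div_cancel₀ _ h.ne, add_sub_cancel] at h2
    exact ⟨_, _, _, h2⟩
  rcases le_or_gt (p.V.v ((y - a) / ρ)) 1 with h2 | h2
  · have h3 := h.mt_out a (RZ.le_one_iff.1 h2) (by rwa [map_div₀, h.eq, div_one])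
    rw [← e] at h3
    exact ⟨_, _, _, h3⟩
  · have h3 := h.mt_far a h2
    rw [← e] at h3
    exact ⟨_, _, _, h3⟩

/-- every point is a specialisation -/
theorem exists_mt' [IsAlgClosed K] (h : Rd p t ρ) (hs : Function.Surjective p.φ) (a : K)
    (u : Option E ⊕ Option E) : ∃ y b₁ b₂, Mt p a t ρ y b₁ b₂ u := by
  have h0 : ∃ y b₁ b₂, Mt p a t ρ y b₁ b₂ (.inr (some 0)) := by
    obtain ⟨z, hz⟩ := IsAlgClosed.exists_pow_nat_eq t (n := 2) two_pos
    have h1 : p.V.v z ^ 2 = p.V.v t := by rw [← map_pow, hz]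
    have h2 : p.V.v z < 1 := lt_of_pow_lt_pow_left₀ 2 zero_le (by rw [h1, one_pow]; exact h.lt)
    have h3 := RZ.le_one_iff.1 h2.le
    have h4 := h.mt_out a h3 (by
      rw [← h1, pow_two]
      exact mul_lt_of_lt_one_left (RZ.pos fun h0 => h.ne (by rw [← hz, h0]; simp)) h2)
    rw [(Pl.r_eq_zero h3).2 h2] at h4
    exact ⟨_, _, _, h4⟩
  rcases u with (_ | e) | (_ | e)
  · obtain ⟨y, b₁, b₂, h1⟩ := h0
    exact ⟨_, _, _, h.mt_node h1⟩
  · obtain ⟨x, rfl⟩ := hs e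
    exact ⟨_, _, _, p.r_coe x ▸ h.mt_in a x.2⟩
  · exact ⟨_, _, _, h.mt_inf a⟩
  · rcases eq_or_ne e 0 with rfl | he
    · exact h0
    obtain ⟨x, rfl⟩ := hs e
    rw [← p.r_coe x] at he ⊢
    exact ⟨_, _, _, h.mt_out a x.2 (h.lt.trans_eq (Pl.r_ne_zero_iff.1 he).symm)⟩

theorem triv (V : RZ ℂ K) : Triv V.v := fun n hn => by
  rw [← map_natCast (algebraMap ℂ K)]
  exact V.v_alg (Nat.cast_ne_zero.2 hn)

/-- a form which is integral at all points has integral sides -/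
theorem exists_pair (h : Rd p t ρ) (hd : σ.natDegree ≤ M + N)
    (hi : ∀ y b₁ b₂ u, Mt p a t ρ y b₁ b₂ u → b₁ ^ M * b₂ ^ N * hv (M + N) σ y ∈ p.V.1) :
    ∃ τ₁ τ₂, τ₁.natDegree ≤ M ∧ τ₂.natDegree ≤ N ∧ PR p (g1 a t M σ) τ₁ ∧
      PR p (g2 a ρ M σ) τ₂ := by
  have h1 : Le p.V.v (sc a t σ) (p.V.v (t ^ M)) := le_of_eval (triv p.V) fun x hx => by
    have h2 := hi _ _ _ _ (h.mt_in a (RZ.le_one_iff.1 hx.le))
    rw [one_pow, mul_one, inv_pow, ← div_eq_inv_mul] at h2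
    rw [eval_sc]
    exact (RZ.le_iff (pow_ne_zero _ h.ne)).2 h2
  have h2 : Le p.V.v (sc a ρ σ) 1 := le_of_eval (triv p.V) fun x hx => by
    have h2 := RZ.le_one_iff.2
      (hi _ _ _ _ (h.mt_out a (RZ.le_one_iff.1 hx.le) (h.lt.trans_eq hx.symm)))
    rw [eval_sc]
    simpa [h.eq, hx] using h2
  obtain ⟨τ₁, h3⟩ := exists_pr (p := p) (f := g1 a t M σ) fun l => by
    rw [coeff_g1']
    split_ifs
    · exact RZ.le_one_iff.2 ((RZ.le_iff (pow_ne_zero _ h.ne)).1 (h1 l))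
    · simp
  obtain ⟨τ₂, h4⟩ := exists_pr (p := p) (f := g2 a ρ M σ) fun l => by
    rw [coeff_g2']
    simpa [h.eq] using h2 (l + M)
  exact ⟨τ₁, τ₂, h3.natDegree_le.trans (natDegree_g1 a t M σ),
    h4.natDegree_le.trans (natDegree_g2 h.ne' a hd), h3, h4⟩

/-- every glued pair lifts -/
theorem exists_lift (h : Rd p t ρ) (hs : Function.Surjective p.φ) (a : K) (h1 : τ₁.natDegree ≤ M)
    (h2 : τ₂.natDegree ≤ N) (h3 : τ₁.coeff M = τ₂.coeff 0) :
    ∃ σ, σ.natDegree ≤ M + N ∧ PR p (g1 a t M σ) τ₁ ∧ PR p (g2 a ρ M σ) τ₂ := by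
  choose s hs using hs
  have hr : ∀ e, (s e : K) ∈ p.V.1 ∧ p.r (s e) = e := fun e => ⟨(s e).2, (p.r_coe _).trans (hs e)⟩
  let φ : ℕ → K := fun l =>
    if l ≤ M then s (τ₁.coeff l) * t ^ M / t ^ l else s (τ₂.coeff (l - M)) / ρ ^ (l - M)
  have hφ : ∀ l, (taylor a (taylor (-a) (∑ l ∈ Finset.range (M + N + 1), monomial l (φ l)))).coeff l
      = if l ≤ M + N then φ l else 0 := fun l => by
    rw [taylor_taylor, add_neg_cancel, taylor_zero]
    simp [finsetSum_coeff, coeff_monomial]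
  refine ⟨taylor (-a) (∑ l ∈ Finset.range (M + N + 1), monomial l (φ l)), ?_, fun l => ?_,
    fun l => ?_⟩
  · rw [natDegree_taylor]
    exact natDegree_sum_le_of_forall_le _ _ fun l hl =>
      (natDegree_monomial_le _).trans (Nat.lt_succ_iff.1 (Finset.mem_range.1 hl))
  · rw [coeff_g1, hφ]
    by_cases hl : l ≤ M
    · simp only [φ, if_pos hl, if_pos (hl.trans (Nat.le_add_right M N))]
      rw [div_mul_cancel₀ _ (pow_ne_zero _ h.ne), mul_div_cancel_right₀ _ (pow_ne_zero _ h.ne)]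
      exact hr _
    · rw [if_neg hl, coeff_eq_zero_of_natDegree_lt (by omega)]
      exact ⟨zero_mem _, p.r_zero⟩
  · rw [coeff_g2 h.ne', hφ]
    rcases Nat.eq_zero_or_pos l with rfl | hl
    · simp only [φ, zero_add, le_refl, if_true, Nat.le_add_right, pow_zero, mul_one]
      rw [mul_div_cancel_right₀ _ (pow_ne_zero _ h.ne), ← h3]
      exact hr _
    by_cases hl' : l ≤ N
    · simp only [φ, if_pos (show l + M ≤ M + N by omega), if_neg (show ¬ l + M ≤ M by omega),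
        Nat.add_sub_cancel]
      rw [div_mul_cancel₀ _ (pow_ne_zero _ h.ne')]
      exact hr _
    · rw [if_neg (by omega), zero_mul, coeff_eq_zero_of_natDegree_lt (by omega)]
      exact ⟨zero_mem _, p.r_zero⟩

end Rd

end Crest.Agent.X262.Gen42
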