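import Crest.Agent.X262.Gen42.Red
import Crest.Agent.X262.DropD.Main

/-!
# Row 262, GEN (helper42), part 3: `Drop30.GenStmt` for data with distinct marks

* `red_ext` : reduction commutes with an extension of valued fields;
* `GenStmt2` : `Drop30.GenStmt` up to the order of the hypotheses; `genStmt2`, `genStmt`.
-/

set_option autoImplicit false
set_option linter.unusedSectionVars false

noncomputable section

namespace Crest.Agent.X262.Gen42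

open Crest.Agent.X277 Crest.Agent.X277.BD Crest.Agent.X262.Vb Crest.Agent.X262.Drop30 Polynomial
open Crest.Agent.X277.BD.Cyc (Rf plV)
open Crest.Agent.X262.Hb (LP)

variable {J : Type} [Fintype J] [DecidableEq J] {io : J → Type} [∀ j, Fintype (io j)]
  [∀ j, DecidableEq (io j)]

section Aux

variable {K L k k' E₀ E I : Type} [Field K] [Algebra ℂ K] [Field L] [Algebra ℂ L] [Field k]
  [Algebra ℂ k] [Field k'] [Algebra ℂ k'] [Field E₀] [Algebra ℂ E₀] [Field E] [Algebra ℂ E]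
  [Fintype I]

theorem red_ext {ι : L →ₐ[ℂ] K} {W : RZ ℂ L} {V : RZ ℂ K} {α : Rf W →ₐ[ℂ] Rf V}
    (h : ∀ x, α ((plV W).r x) = (plV V).r (ι x)) {z : Cfg io I L} (hz : z.NZ) :
    Cfg.Geq ((z.map ι).red (plV V)) ((z.red (plV W)).map α) := by
  have e : (LP.hom ι).comp (LP.at V) = (LP.at W).comp (LP.hom α) := LP.ext fun x => by
    rw [LP.r_comp, LP.r_comp, LP.r_hom, LP.r_hom]
    exact (h x).symm
  exact (Cfg.red_map ι (LP.at V) hz).symm.trans (e ▸ Cfg.map_red (LP.at W) α hz)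

theorem exists_gen {γ : k →ₐ[ℂ] k'} (h : deg γ ≠ 0) {α : E₀ →ₐ[ℂ] E} {β : k' →ₐ[ℂ] E}
    (hβ : ∀ x, β (γ x) ∈ Set.range α) :
    ∃ s : Finset E, β.fieldRange ≤ IntermediateField.adjoin ℂ (Set.range α ∪ s) := by
  classical
  let _ : Algebra k k' := γ.toRingHom.toAlgebra
  have : FiniteDimensional k k' := Module.finite_of_finrank_pos (Nat.pos_of_ne_zero h)
  obtain ⟨S, hS⟩ := Module.Finite.fg_top (R := k) (M := k')
  refine ⟨S.image β, ?_⟩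
  rintro _ ⟨x, rfl⟩
  have hx : x ∈ Submodule.span k (S : Set k') := hS ▸ Submodule.mem_top
  change β x ∈ _
  induction hx using Submodule.span_induction with
  | mem x hx =>
    exact IntermediateField.subset_adjoin _ _ (Or.inr (Finset.mem_image_of_mem β hx))
  | zero => exact map_zero β ▸ zero_mem _
  | add x y _ _ hx hy => exact map_add β x y ▸ add_mem hx hy
  | smul c x _ hx =>
    exact (map_mul β (γ c) x).symm ▸
      mul_mem (IntermediateField.subset_adjoin _ _ (Or.inl (hβ c))) hx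

theorem pr_map {δ : k →ₐ[ℂ] K} {V : RZ ℂ K} (h : ∀ x, δ x ∈ V.1) (f : k[X]) :
    PR (plV V) (f.map (δ : k →+* K)) (f.map (Wd.rt δ V h : k →+* Rf V)) := fun l => by
  rw [coeff_map, coeff_map]
  exact ⟨h _, rfl⟩

theorem v_eq_one {δ : k →ₐ[ℂ] K} {V : RZ ℂ K} (h : ∀ x, δ x ∈ V.1) {x : k} (hx : δ x ≠ 0) :
    V.v (δ x) = 1 :=
  Wd.rr_ne_zero.1 ((_root_.map_ne_zero (Wd.rt δ V h)).2 ((_root_.map_ne_zero δ).1 hx))

end Aux

variable (io) in
/-- `Drop30.GenStmt` for data with distinct marks -/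
def GenStmt2 : Prop :=
  ∀ (d m n : J → ℕ) (N : ℕ) (M I K L k k' I₁ I₂ : Type) [Fintype M] [Fintype I] [Fintype I₁]
    [Fintype I₂] [Field K] [Algebra ℂ K] [Field L] [Algebra ℂ L] [Field k] [Algebra ℂ k] [Field k']
    [Algebra ℂ k'] (x₀ : Dat io d M K) (o a b e : M) (A R : ℂ) (B : K) (S : Set M),
    Shp x₀ o a b e A R B → IsTy d m n S o a b e → Function.Injective x₀.x →
    ∀ (ι : k →ₐ[ℂ] K) (η₁ : Dat io m (Mi S) k) (η₂ : Dat io n (Mo S) k), Chart x₀ A R B S ι η₁ η₂ →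
    ∀ (θ : K →ₐ[ℂ] L) (ξ : Dat io d I L) (g : M → I), ξ.res g = x₀.map θ → ξ.NrmUp N →
    ∀ (γ : k →ₐ[ℂ] k') (ξ₁ : Dat io m I₁ k') (ξ₂ : Dat io n I₂ k') (g₁ : Mi S → I₁)
      (g₂ : Mo S → I₂), deg γ ≠ 0 → ξ₁.res g₁ = η₁.map γ → ξ₂.res g₂ = η₂.map γ → ξ₁.NrmUp N →
      ξ₂.NrmUp N →
    ∀ (W : RZ ℂ L) (hW : ∀ x, (θ.comp ι) x ∈ W.1), W.v (θ (B - algebraMap ℂ K A)) < 1 →
      ∃ (E : Type) (_ : Field E) (_ : Algebra ℂ E) (α : Rf W →ₐ[ℂ] E) (β : k' →ₐ[ℂ] E),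
        deg α ≠ 0 ∧ β.comp γ = α.comp (Wd.rt (θ.comp ι) W hW) ∧
        Sim N ((ξ.cfg.red (plV W)).map α) g ((gl ξ₁ (g₁ none) ξ₂ (g₂ none)).map β)
          (Drop30.mk S g₁ g₂)

theorem genStmt2 : GenStmt2 io := by
  intro d m n N M I K L k k' I₁ I₂ _ _ _ _ _ _ _ _ _ _ _ _ x₀ o a b e A R B S hS hT hI ι η₁ η₂ hC
    θ ξ g hξ hN γ ξ₁ ξ₂ g₁ g₂ hγ hξ₁ hξ₂ hN₁ hN₂ W hW ht
  obtain ⟨K', _, _, _, ι', V, α, hV, hα, hal, hl⟩ := DropD.extStmt L W
  obtain ⟨δ, hδ, hi⟩ := hl k k' γ ((ι'.comp θ).comp ι) hγ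
  replace hi := hi fun x => (Wd.mem_dn (α := ι')).1 (hV.symm ▸ hW x)
  obtain ⟨s, hs, hf₁, hf₂⟩ := hC.f
  generalize hφ : ι'.comp θ = φ at hδ
  have H₀ : (ξ.map ι').res g = x₀.map φ := by
    rw [← Vb37.dmap_res, hξ, Vb37.dmap_map, hφ]
  have H₁ : (η₁.map ι).map φ = (ξ₁.res g₁).map δ := by
    rw [hξ₁, Vb37.dmap_map, Vb37.dmap_map, hδ]
  have H₂ : (η₂.map ι).map φ = (ξ₂.res g₂).map δ := by
    rw [hξ₂, Vb37.dmap_map, Vb37.dmap_map, hδ]
  have hf₀ : ∀ j i, (ξ.map ι').f j i = (x₀.f j i).map (φ : K →+* K') :=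
    fun j i => congrArg (fun z => z.f j i) H₀
  have hx₀ : ∀ i, (ξ.map ι').x (g i) = (x₀.x i).map φ := fun i => congrArg (fun z => z.x i) H₀
  have hx₁ : ∀ i, (nx (algebraMap ℂ K A) (B - algebraMap ℂ K A) (x₀.x i.1)).map φ =
      (ξ₁.x (g₁ (some i))).map δ := fun i => hC.x₁ i ▸ congrArg (fun z => z.x (some i)) H₁
  have hx₂ : ∀ i, (nx (algebraMap ℂ K A) (algebraMap ℂ K (R - A)) (x₀.x i.1)).map φ =
      (ξ₂.x (g₂ (some i))).map δ := fun i => hC.x₂ i ▸ congrArg (fun z => z.x (some i)) H₂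
  have hG : Gd (plV V) (φ (algebraMap ℂ K A)) (φ (B - algebraMap ℂ K A))
      (φ (algebraMap ℂ K (R - A))) (fun j => φ (s j)) (ξ.map ι') (ξ₁.map (Wd.rt δ V hi))
      (ξ₂.map (Wd.rt δ V hi)) := by
    refine ⟨⟨(_root_.map_ne_zero φ).2 (sub_ne_zero.2 hS.ab), ?_, ?_⟩, hT.add,
      fun j => (_root_.map_ne_zero φ).2 (hs j), fun j i => ?_, fun j i => ?_⟩
    · rw [← hφ]
      exact (Wd.dn_lt_one (α := ι') (W := V)).1 (hV.symm ▸ ht)
    · rw [φ.commutes]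
      exact V.v_alg (sub_ne_zero.2 hS.ae)
    · have h1 : ((η₁.map ι).f j i).map (φ : K →+* K') = (ξ₁.f j i).map (δ : k' →+* K') :=
        congrArg (fun z => z.f j i) H₁
      rw [hf₁, Polynomial.map_mul, map_C, map_g1] at h1
      rw [g1_C_mul, hf₀]
      exact h1 ▸ pr_map hi _
    · have h1 : ((η₂.map ι).f j i).map (φ : K →+* K') = (ξ₂.f j i).map (δ : k' →+* K') :=
        congrArg (fun z => z.f j i) H₂
      rw [hf₂, Polynomial.map_mul, map_C, map_g2] at h1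
      rw [g2_C_mul, hf₀]
      exact h1 ▸ pr_map hi _
  have h₁ : (ξ₁.map (Wd.rt δ V hi)).x (g₁ none) = none := by
    have h1 : ξ₁.x (g₁ none) = (η₁.x none).map γ := congrArg (fun z => z.x none) hξ₁
    simp [Dat.map, h1, hC.n₁]
  have h₂ : (ξ₂.map (Wd.rt δ V hi)).x (g₂ none) = some 0 := by
    have h1 : ξ₂.x (g₂ none) = (η₂.x none).map γ := congrArg (fun z => z.x none) hξ₂
    simp [Dat.map, h1, hC.n₂]
  have key : ∀ {ρ y : K} {x : k'}, φ ρ ≠ 0 → φ ((y - algebraMap ℂ K A) / ρ) = δ x →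
      φ y = φ (algebraMap ℂ K A) + φ ρ * δ x := fun h0 h1 => by
    rw [← h1, map_div₀, mul_div_cancel₀ _ h0, map_sub, add_sub_cancel]
  have hL := hG.lat (Vb37.nrmUp_map hN _) (Vb37.nrmUp_map hN₁ _) (Vb37.nrmUp_map hN₂ _) h₁ h₂
    (g := g) (g' := Drop30.mk S g₁ g₂) fun i => by
      rw [hx₀, Drop30.mk]
      by_cases h : i ∈ S
      · have h1 := hx₁ ⟨i, h⟩
        rw [dif_pos h]
        change ∃ b₁ b₂, Mt _ _ _ _ _ b₁ b₂ (.inl ((ξ₁.x (g₁ (some ⟨i, h⟩))).map _))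
        rcases h2 : x₀.x i with _ | y
        · exact absurd (hI (h2.trans hS.o.symm) ▸ h) hT.o
        rw [h2] at h1
        obtain ⟨x, h3, h4⟩ := Option.map_eq_some_iff.1 h1.symm
        rw [h3, Option.map_some, key hG.rd.ne h4.symm]
        exact ⟨_, _, hG.rd.mt_in _ (hi x)⟩
      · have h1 := hx₂ ⟨i, h⟩
        rw [dif_neg h]
        change ∃ b₁ b₂, Mt _ _ _ _ _ b₁ b₂ (.inr ((ξ₂.x (g₂ (some ⟨i, h⟩))).map _))
        rcases h2 : x₀.x i with _ | y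
        · rw [h2] at h1
          rw [Option.map_eq_none_iff.1 h1.symm]
          exact ⟨_, _, hG.rd.mt_inf _⟩
        rw [h2] at h1
        obtain ⟨x, h3, h4⟩ := Option.map_eq_some_iff.1 h1.symm
        have h5 : δ x ≠ 0 := h4 ▸ (_root_.map_ne_zero φ).2 (div_ne_zero (sub_ne_zero.2 fun h6 =>
          h (hI (h2.trans (h6 ▸ hS.a.symm)) ▸ hT.a)) ((_root_.map_ne_zero φ).1 hG.rd.ne'))
        rw [h3, Option.map_some, key hG.rd.ne' h4.symm]
        exact ⟨_, _, hG.rd.mt_out _ (hi x) (hG.rd.lt.trans_eq (v_eq_one hi h5).symm)⟩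
  have hP : Node22.Par (ξ₁.pt (ξ₁.x (g₁ none))) (ξ₂.pt (ξ₂.x (g₂ none))) :=
    DropD.par_desc (Wd.rt δ V hi) (Vb37.nz_pt _ _) (by
      have h1 := hG.node
      rw [← h₁, ← h₂] at h1
      exact ⟨1, fun _ => one_ne_zero, (Bub96.pt_map ξ₁ _ _).symm.trans
        (h1.trans ((Bub96.pt_map ξ₂ _ _).trans (Node22.scl_one _).symm))⟩)
  rw [← gl_map _ hP, Vb37.cfg_map] at hL
  have hc : ∀ x, Wd.rt δ V hi (γ x) = α (Wd.rt (θ.comp ι) W hW x) := fun x => by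
    rw [Wd.rt_apply, Wd.rt_apply, hα, ← AlgHom.comp_apply δ, hδ, ← hφ]
    rfl
  obtain ⟨T, hT⟩ := exists_gen hγ (α := α) (β := Wd.rt δ V hi) fun x => ⟨_, (hc x).symm⟩
  obtain ⟨E, α', β', h1, h2, h3, h4⟩ := DropD.descStmt N M I _ _ _ _ α _ _ g _ _ T hal hT
    (lat_geq hL (red_ext hα (nz_cfg ξ)))
  refine ⟨E, inferInstance, inferInstance, α', β', h1, AlgHom.ext fun x => Subtype.ext ?_, h4⟩
  exact (DFunLike.congr_fun h3 _).trans ((hc x).trans (DFunLike.congr_fun h2 _).symm)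

theorem genStmt : GenStmt io :=
  fun d m n N M I K L k k' I₁ I₂ _ _ _ _ _ _ _ _ _ _ _ _ x₀ o a b e A R B S hS hI hT =>
    genStmt2 d m n N M I K L k k' I₁ I₂ x₀ o a b e A R B S hS hT hI

end Crest.Agent.X262.Gen42
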