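import Crest.Agent.X262.Gen42.Two
import Crest.Agent.X262.Wd54.Lat
import Crest.Agent.X262.Vb37.Mob
import Crest.Agent.X262.Bub96.NormB

/-!
# Row 262, GEN (helper42), part 2: a datum with good reduction to two lines

* `mem_cfg`, `mul_cfg`, `nrm_gam`, `np_cfg` : the configuration of a datum;
* `pair_map`, `jn_map`, `gl_map`, `mem_gl` : the glued configuration;
* `Gd` : good reduction; `Gd.mem_red` : the reduced spaces of sections; `Gd.lat` : the reduced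
  configuration and the glued configuration have a common norming refinement.
-/

set_option autoImplicit false
set_option linter.unusedSectionVars false

noncomputable section

namespace Crest.Agent.X262.Gen42

open Crest.Agent.X277 Crest.Agent.X277.BD Crest.Agent.X262.Vb Crest.Agent.X262.Drop30 Polynomial
open Crest.Agent.X277.BD.Cyc (Rf plV surj_plV)
open Crest.Agent.X262.Bub96 (hv)
open Crest.Agent.X262.Bub96.Tr (dot)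
open Crest.Agent.X262.Node22 (scl chr chr_ne Par pair jn mem_jn mem_pair)
open Crest.Agent.X262.Wd54 (NP GeqN Lat)

variable {J : Type} [Fintype J] [DecidableEq J] {io : J → Type} [∀ j, Fintype (io j)]
  [∀ j, DecidableEq (io j)] {K E : Type} [Field K] [Algebra ℂ K] [Field E] [Algebra ℂ E]
  {d m n κ : J → ℕ} {I I' I₁ I₂ M : Type} [Fintype I] [Fintype I'] [Fintype I₁] [Fintype I₂]
  {N : ℕ}

section Dat

variable {ξ : Dat io d I K}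

theorem mem_cfg {w : I → K} : w ∈ ξ.cfg.V κ ↔
    ∃ σ : K[X], σ.natDegree ≤ dot κ d ∧ (fun q => hv (dot κ d) σ (ξ.x q)) = w :=
  exists_congr fun _ => and_congr_left fun _ =>
    mem_degreeLE.trans natDegree_le_iff_degree_le.symm

theorem mul_cfg (ξ : Dat io d I K) : ξ.cfg.Mul where
  one := mem_cfg.2 ⟨1, by simp, _root_.funext fun q => by cases ξ.x q <;> simp [dot]⟩
  crd j i := by
    have h : dot (Pi.single j 1) d = d j := by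
      rw [dot, Finset.sum_eq_single j (fun j' _ hj => by simp [hj]) (by simp)]
      simp
    exact mem_cfg.2 ⟨ξ.f j i, h ▸ ξ.cp.1 j i, h ▸ rfl⟩
  mul κ κ' u u' hu hu' := by
    obtain ⟨σ, h1, rfl⟩ := mem_cfg.1 hu
    obtain ⟨σ', h2, rfl⟩ := mem_cfg.1 hu'
    have h : dot (κ + κ') d = dot κ d + dot κ' d := by
      simp [dot, add_mul, Finset.sum_add_distrib]
    exact mem_cfg.2 ⟨σ * σ', h ▸ natDegree_mul_le.trans (add_le_add h1 h2),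
      h ▸ _root_.funext fun q => hv_mul h1 h2 _⟩

theorem nz_cfg (ξ : Dat io d I K) : ξ.cfg.NZ := fun _ => Vb37.nz_pt ξ _

omit [Fintype I] in
theorem nrm_gam (h : ξ.Nrm κ) (W : RZ ℂ K) (γ : W.1.ValueGroup) {σ : K[X]}
    (hσ : σ.natDegree ≤ dot κ d)
    (hq : ∀ q, W.v (hv (dot κ d) σ (ξ.x q)) ≤ γ * (lw κ (ξ.pt (ξ.x q))).val W) (t : Option K) :
    W.v (hv (dot κ d) σ t) ≤ γ * (lw κ (ξ.pt t)).val W := by
  obtain ⟨c, rfl⟩ := W.exists_v γ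
  rcases eq_or_ne c 0 with rfl | hc
  · rw [Bub96.nrm_inj h hσ fun q => by simpa using hq q]
    cases t <;> simp
  have key : ∀ t, W.v (hv (dot κ d) (C c⁻¹ * σ) t) ≤ (lw κ (ξ.pt t)).val W ↔
      W.v (hv (dot κ d) σ t) ≤ W.v c * (lw κ (ξ.pt t)).val W := fun t => by
    rw [hv_C_mul, map_mul, map_inv₀, inv_mul_le_iff₀ (RZ.pos hc)]
  have h1 := h K (AlgHom.id ℂ K) W _ ((natDegree_C_mul_le c⁻¹ σ).trans hσ)
  rw [Vb37.dmap_id] at h1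
  exact (key t).1 (h1 (fun q => (key _).2 (hq q)) t)

theorem np_cfg {g : I' → I} (h : (ξ.res g).NrmUp N) : NP N ξ.cfg g := by
  intro κ hκ σ hσ W γ h1 q
  obtain ⟨τ, hτ, rfl⟩ := mem_cfg.1 hσ
  exact nrm_gam (h κ hκ) W γ hτ h1 _

end Dat

section Cfg

variable {z z₀ w : Cfg io I E}

theorem geqN_of (hy : z₀.y = w.y) (hV : ∀ κ : J → ℕ, (∀ j, κ j ≤ N) → z₀.V κ = w.V κ)
    (h : Cfg.Geq z₀ z) : GeqN N w z := by
  obtain ⟨c, hc, rfl⟩ := h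
  exact ⟨c, hc, _root_.funext fun q => by rw [Cfg.gau_y, Cfg.gau_y, hy], fun κ hκ => by
    rw [Cfg.gau_V, Cfg.gau_V, hV κ hκ]⟩

theorem lat_geq {z' : Cfg io I' E} {g : M → I} {g' : M → I'} (h : Lat N z₀ g z' g')
    (h' : Cfg.Geq z₀ z) : Lat N z g z' g' := by
  obtain ⟨Q, _, w, e, e', h1, h2, h3, h4, ⟨c, hc, hy, hV⟩, h5, h6⟩ := h
  refine ⟨Q, inferInstance, w, e, e', h1, h2, h3, h4, ?_, h5, fun q => Par.trans ?_ (h6 q)⟩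
  · obtain ⟨c', hc', hy', hV'⟩ := geqN_of hy hV h'
    rw [Cfg.gau_gau] at hy' hV'
    exact ⟨_, fun q j => mul_ne_zero (hc' q j) (hc q j), hy', hV'⟩
  · obtain ⟨c', hc', rfl⟩ := h'
    exact ⟨_, hc' _, rfl⟩

theorem sep (α : K →ₐ[ℂ] E) {x : E}
    (h : ∀ φ : E →+ K, (∀ c x, φ (α c * x) = c * φ x) → φ x = 0) : x = 0 := by
  have h1 : (fun _ : Unit => x) ∈ mapS α (⊥ : Submodule K (Unit → K)) :=
    (mem_mapS_iff α).2 fun φ hφ => _root_.funext fun _ => h φ hφ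
  have h2 : mapS α (⊥ : Submodule K (Unit → K)) ≤ ⊥ := mapS_le fun u hu =>
    _root_.funext fun x => (congrArg α (congrFun hu x)).trans (map_zero α)
  exact congrFun (h2 h1) ()

theorem pair_map (α : K →ₐ[ℂ] E) (z₁ : Cfg io I₁ K) (z₂ : Cfg io I₂ K) :
    (pair z₁ z₂).map α = pair (z₁.map α) (z₂.map α) :=
  Cfg.ext (by rintro (q | q) <;> rfl) fun κ => by
    change mapS α (_ ⊓ _) = _
    rw [mapS_inf, mapS_comap, mapS_comap]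
    rfl

theorem jn_map (α : K →ₐ[ℂ] E) {z : Cfg io I K} {q q' : I} (h : Par (z.y q) (z.y q'))
    (h' : NZ (z.y q')) : (jn z q q').map α = jn (z.map α) q q' := by
  obtain ⟨c, -, h⟩ := h
  refine Cfg.ext (fun _ => rfl) fun κ => ?_
  have h1 : chr (fun j => α (c j)) κ = α (chr c κ) := by simp [chr]
  ext w
  rw [mem_jn (z := z.map α) (c := fun j => α (c j))
    (by rw [Cfg.map_y, h]; funext j i; exact map_mul α _ _) ((nz_map α).2 h'), h1]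
  change w ∈ mapS α _ ↔ w ∈ mapS α _ ∧ _
  simp only [mem_mapS_iff, mem_jn h h']
  refine ⟨fun H => ⟨fun φ hφ => (H φ hφ).1, sub_eq_zero.1 (sep α fun φ hφ => ?_)⟩,
    fun H φ hφ => ⟨H.1 φ hφ, by rw [H.2, hφ]⟩⟩
  rw [map_sub, hφ, (H φ hφ).2, sub_self]

theorem gl_map (α : K →ₐ[ℂ] E) {ξ₁ : Dat io m I₁ K} {ξ₂ : Dat io n I₂ K} {n₁ : I₁} {n₂ : I₂}
    (h : Par (ξ₁.pt (ξ₁.x n₁)) (ξ₂.pt (ξ₂.x n₂))) :
    (gl ξ₁ n₁ ξ₂ n₂).map α = gl (ξ₁.map α) n₁ (ξ₂.map α) n₂ := by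
  rw [gl, jn_map α h (Vb37.nz_pt _ _), pair_map, gl, Vb37.cfg_map, Vb37.cfg_map]

/-- the values of glued pairs of forms at the points `u` -/
def Vl (m n κ : J → ℕ) (u : I → Option E ⊕ Option E) (w : I → E) : Prop :=
  ∃ τ₁ τ₂ : E[X], τ₁.natDegree ≤ dot κ m ∧ τ₂.natDegree ≤ dot κ n ∧
    τ₁.coeff (dot κ m) = τ₂.coeff 0 ∧
    (fun q => (u q).elim (hv (dot κ m) τ₁) (hv (dot κ n) τ₂)) = w

theorem mem_gl {ζ₁ : Dat io m I₁ E} {ζ₂ : Dat io n I₂ E} {n₁ : I₁} {n₂ : I₂}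
    (h₁ : ζ₁.x n₁ = none) (h₂ : ζ₂.x n₂ = some 0) (h : ζ₁.pt none = ζ₂.pt (some 0))
    {w : I₁ ⊕ I₂ → E} : w ∈ (gl ζ₁ n₁ ζ₂ n₂).V κ ↔ Vl m n κ (Sum.map ζ₁.x ζ₂.x) w := by
  rw [gl, mem_jn (c := 1) (by
    change ζ₁.pt (ζ₁.x n₁) = scl 1 (ζ₂.pt (ζ₂.x n₂))
    rw [h₁, h₂, h, Node22.scl_one]) (Vb37.nz_pt _ _), mem_pair, mem_cfg, mem_cfg, Node22.chr_one,
    one_mul]
  constructor
  · rintro ⟨⟨⟨τ₁, h1, h2⟩, τ₂, h3, h4⟩, h5⟩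
    refine ⟨τ₁, τ₂, h1, h3, ?_, _root_.funext ?_⟩
    · rwa [← congrFun h2 n₁, ← congrFun h4 n₂, h₁, h₂, hv_some, ← coeff_zero_eq_eval_zero] at h5
    · rintro (q | q)
      exacts [congrFun h2 q, congrFun h4 q]
  · rintro ⟨τ₁, τ₂, h1, h2, h3, rfl⟩
    refine ⟨⟨⟨τ₁, h1, rfl⟩, τ₂, h2, rfl⟩, ?_⟩
    change hv _ τ₁ (ζ₁.x n₁) = hv _ τ₂ (ζ₂.x n₂)
    rwa [h₁, h₂, hv_some, ← coeff_zero_eq_eval_zero]

end Cfg

/-- good reduction to two lines -/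
structure Gd (p : Pl ℂ K ℂ E) (a t ρ : K) (s : J → K) (ξ : Dat io d I K) (ζ₁ : Dat io m I₁ E)
    (ζ₂ : Dat io n I₂ E) : Prop where
  rd : Rd p t ρ
  add : ∀ j, m j + n j = d j
  ne : ∀ j, s j ≠ 0
  f₁ : ∀ j i, PR p (g1 a t (m j) (C (s j) * ξ.f j i)) (ζ₁.f j i)
  f₂ : ∀ j i, PR p (g2 a ρ (m j) (C (s j) * ξ.f j i)) (ζ₂.f j i)

/-- the comparison scalars -/
def cf (m n : J → ℕ) (s : J → K) (b₁ b₂ : K) : J → K := fun j => b₁ ^ m j * b₂ ^ n j * s j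

theorem chr_cf (m n κ : J → ℕ) (s : J → K) (b₁ b₂ : K) :
    chr (cf m n s b₁ b₂) κ = b₁ ^ dot κ m * b₂ ^ dot κ n * chr s κ := by
  simp only [chr, cf, mul_pow, Finset.prod_mul_distrib, dot, ← pow_mul, Finset.prod_pow_eq_pow_sum,
    mul_comm (κ _)]

namespace Gd

variable {p : Pl ℂ K ℂ E} {a t ρ b₁ b₂ : K} {s : J → K} {ξ : Dat io d I K} {ζ₁ : Dat io m I₁ E}
  {ζ₂ : Dat io n I₂ E} {y : Option K} {u : Option E ⊕ Option E}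
  (h : Gd p a t ρ s ξ ζ₁ ζ₂)
include h

theorem node : ζ₁.pt none = ζ₂.pt (some 0) := _root_.funext fun j => _root_.funext fun i =>
  (h.rd.node (h.f₁ j i) (h.f₂ j i)).trans (coeff_zero_eq_eval_zero _)

theorem dot_eq (κ : J → ℕ) : dot κ d = dot κ m + dot κ n := by
  simp only [dot, ← h.add, mul_add, Finset.sum_add_distrib]

theorem cf_ne (hM : Mt p a t ρ y b₁ b₂ u) (j : J) : cf m n s b₁ b₂ j ≠ 0 :=
  mul_ne_zero (mul_ne_zero (pow_ne_zero _ hM.1) (pow_ne_zero _ hM.2.1)) (h.ne j)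

theorem pt (hM : Mt p a t ρ y b₁ b₂ u) (j : J) (i : io j) :
    scl (cf m n s b₁ b₂) (ξ.pt y) j i ∈ p.V.1 ∧
      p.r (scl (cf m n s b₁ b₂) (ξ.pt y) j i) = u.elim ζ₁.pt ζ₂.pt j i := by
  have h1 := hM.2.2 _ (n j) _ _ _
    ((natDegree_C_mul_le _ _).trans ((ξ.cp.1 j i).trans_eq (h.add j).symm)) (h.f₁ j i) (h.f₂ j i)
  rw [hv_C_mul, ← mul_assoc, h.add] at h1
  exact ⟨h1.1, h1.2.trans (by cases u <;> rfl)⟩

theorem red (hM : Mt p a t ρ y b₁ b₂ u) :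
    redP p (scl (cf m n s b₁ b₂) (ξ.pt y)) = u.elim ζ₁.pt ζ₂.pt :=
  _root_.funext fun j => _root_.funext fun i => (h.pt hM j i).2

theorem prim (hM : Mt p a t ρ y b₁ b₂ u) : Prim p.V (scl (cf m n s b₁ b₂) (ξ.pt y)) := fun j => by
  have h1 : NZ (u.elim ζ₁.pt ζ₂.pt) := by cases u <;> exact Vb37.nz_pt _ _
  exact ⟨fun i => (h.pt hM j i).1, (h1 j).imp fun i hi =>
    Pl.r_ne_zero_iff.1 ((h.pt hM j i).2 ▸ hi)⟩

theorem int_iff (hM : Mt p a t ρ y b₁ b₂ u) (x : K) :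
    chr (cf m n s b₁ b₂) κ * x ∈ p.V.1 ↔ p.V.v x ≤ (lw κ (ξ.pt y)).val p.V := by
  have h0 := chr_ne (h.cf_ne hM) κ
  rw [← RZ.le_one_iff, ← (h.prim hM).val_lw κ, lw_scl (Vb37.nz_pt _ _) (h.cf_ne hM), val_add,
    val_pr h0, map_mul, mul_comm, mul_le_mul_iff_left₀ (RZ.pos h0)]

theorem chr_mul (σ : K[X]) : chr (cf m n s b₁ b₂) κ * hv (dot κ d) σ y =
    b₁ ^ dot κ m * b₂ ^ dot κ n * hv (dot κ m + dot κ n) (C (chr s κ) * σ) y := by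
  rw [chr_cf, hv_C_mul, h.dot_eq, mul_assoc]

/-- the reduced spaces of sections -/
theorem mem_red (hs : Function.Surjective p.φ) {b₁ b₂ : I → K} {u : I → Option E ⊕ Option E}
    (hM : ∀ q, Mt p a t ρ (ξ.x q) (b₁ q) (b₂ q) (u q)) (hN : ξ.Nrm κ) {w : I → E} :
    w ∈ ((ξ.cfg.gau fun q => cf m n s (b₁ q) (b₂ q)).red0 p).V κ ↔ Vl m n κ u w := by
  constructor
  · intro hw
    obtain ⟨_, ⟨_, h0, rfl⟩, hi, rfl⟩ := exists_of_mem_redS hs hw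
    obtain ⟨σ, hσ, rfl⟩ := mem_cfg.1 h0
    have h1 := nrm_gam hN p.V 1 hσ fun q => by
      rw [one_mul]
      exact (h.int_iff (hM q) _).1 (hi q)
    have h2 := (natDegree_C_mul_le (chr s κ) σ).trans (hσ.trans_eq (h.dot_eq κ))
    obtain ⟨τ₁, τ₂, h3, h4, h5, h6⟩ := h.rd.exists_pair (a := a) h2 fun y _ _ _ hy => by
      rw [← h.chr_mul, h.int_iff hy]
      simpa using h1 y
    refine ⟨τ₁, τ₂, h3, h4, h.rd.node h5 h6, _root_.funext fun q => ?_⟩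
    rw [← ((hM q).2.2 _ _ _ _ _ h2 h5 h6).2, ← h.chr_mul]
    rfl
  · rintro ⟨τ₁, τ₂, h1, h2, h3, rfl⟩
    obtain ⟨σ, h4, h5, h6⟩ := h.rd.exists_lift hs a h1 h2 h3
    have h7 : ∀ q, chr (cf m n s (b₁ q) (b₂ q)) κ * hv (dot κ d) (C (chr s κ)⁻¹ * σ) (ξ.x q) =
        b₁ q ^ dot κ m * b₂ q ^ dot κ n * hv (dot κ m + dot κ n) σ (ξ.x q) := fun q => by
      rw [h.chr_mul, ← mul_assoc (C _), ← C_mul, mul_inv_cancel₀ (chr_ne h.ne κ), C_1, one_mul]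
    have h8 := mem_redS p (scl_mem (c := fun q => chr (cf m n s (b₁ q) (b₂ q)) κ)
      (mem_cfg.2 ⟨_, (natDegree_C_mul_le (chr s κ)⁻¹ σ).trans (h4.trans_eq (h.dot_eq κ).symm),
        rfl⟩)) fun q => h7 q ▸ ((hM q).2.2 _ _ _ _ _ h4 h5 h6).1
    simp only [h7, fun q => ((hM q).2.2 _ _ _ _ _ h4 h5 h6).2] at h8
    exact h8

end Gd

/-- **two-vertex reduction** -/
theorem Gd.lat [IsAlgClosed K] {V : RZ ℂ K} {a t ρ : K} {s : J → K} {ξ : Dat io d I K}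
    {ζ₁ : Dat io m I₁ (Rf V)} {ζ₂ : Dat io n I₂ (Rf V)} (h : Gd (plV V) a t ρ s ξ ζ₁ ζ₂)
    (hN : ξ.NrmUp N) (hN₁ : ζ₁.NrmUp N) (hN₂ : ζ₂.NrmUp N) {n₁ : I₁} {n₂ : I₂}
    (h₁ : ζ₁.x n₁ = none) (h₂ : ζ₂.x n₂ = some 0) {g : M → I} {g' : M → I₁ ⊕ I₂}
    (hg : ∀ i, ∃ b₁ b₂, Mt (plV V) a t ρ (ξ.x (g i)) b₁ b₂ (Sum.map ζ₁.x ζ₂.x (g' i))) :
    Lat N (ξ.cfg.red (plV V)) g (gl ζ₁ n₁ ζ₂ n₂) g' := by
  choose b₁ b₂ u hM using fun q : I => h.rd.exists_mt a (ξ.x q)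
  choose y c₁ c₂ hM' using fun q : I₁ ⊕ I₂ =>
    h.rd.exists_mt' (surj_plV V) a (Sum.map ζ₁.x ζ₂.x q)
  let Ξ : Dat io d (I ⊕ (I₁ ⊕ I₂)) K := ⟨ξ.f, Sum.elim ξ.x y, ξ.cp⟩
  have hΞ : Gd (plV V) a t ρ s Ξ ζ₁ ζ₂ := ⟨h.rd, h.add, h.ne, h.f₁, h.f₂⟩
  have hU : ∀ q, Mt (plV V) a t ρ (Ξ.x q) (Sum.elim b₁ c₁ q) (Sum.elim b₂ c₂ q)
      (Sum.elim u (Sum.map ζ₁.x ζ₂.x) q) := by
    rintro (q | q)
    exacts [hM q, hM' q]
  have hr : (Ξ.res Sum.inl).NrmUp N := hN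
  have hc := fun q => hΞ.cf_ne (hU q)
  have hP : (Ξ.cfg.gau fun q => cf m n s (Sum.elim b₁ c₁ q) (Sum.elim b₂ c₂ q)).Pr V :=
    fun q => hΞ.prim (hU q)
  have h1 := (np_cfg hr).gau (nz_cfg Ξ) hc
  have hV := fun κ hκ w => hΞ.mem_red (surj_plV V) hU (Vb37.nrmUp_of_res _ hr κ hκ) (w := w)
  have hy : ∀ q, ((Ξ.cfg.gau fun q => cf m n s (Sum.elim b₁ c₁ q) (Sum.elim b₂ c₂ q)).red0
      (plV V)).y q = _ := fun q => hΞ.red (hU q)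
  have hy' : ∀ q, (gl ζ₁ n₁ ζ₂ n₂).y q = (Sum.map ζ₁.x ζ₂.x q).elim ζ₁.pt ζ₂.pt := by
    rintro (q | q) <;> rfl
  refine ⟨_, inferInstance, _, Sum.inl, Sum.inr, Cfg.Pr.nz_red0 (p := plV V) hP,
    .of_cfg (((mul_cfg Ξ).gau _).red0 (p := plV V) hP), h1.red0 hP, ?_, ?_, ?_, fun i => ?_⟩
  · intro κ hκ σ hσ W γ h2 q
    obtain ⟨τ₁, τ₂, h3, h4, -, rfl⟩ := (hV κ hκ σ).1 hσ
    simp only [hy] at h2 ⊢
    have h5 := nrm_gam (hN₁ κ hκ) W γ h3 fun q => h2 (.inl q)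
    have h6 := nrm_gam (hN₂ κ hκ) W γ h4 fun q => h2 (.inr q)
    generalize Sum.elim u (Sum.map ζ₁.x ζ₂.x) q = e
    rcases e with e | e
    exacts [h5 e, h6 e]
  · refine geqN_of (z₀ := (Cfg.res Sum.inl _).red0 (plV V)) rfl
      (fun κ hκ => h1.red0_V (plV V) hP hκ) (Cfg.Geq.red_red0 ?_ ?_).symm
    · rw [Cfg.res_gau, ← Vb37.cfg_res]
      exact Cfg.geq_gau ξ.cfg fun q => hc _
    · exact fun q => hP _
  · refine geqN_of (_root_.funext fun q => (hy' q).trans (hy (.inr q)).symm) (fun κ hκ => ?_) .rfl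
    ext w
    rw [mem_gl h₁ h₂ h.node]
    constructor
    · rintro ⟨τ₁, τ₂, h2, h3, h4, rfl⟩
      exact ⟨_, (hV κ hκ _).2 ⟨τ₁, τ₂, h2, h3, h4, rfl⟩, rfl⟩
    · rintro ⟨σ, hσ, rfl⟩
      obtain ⟨τ₁, τ₂, h2, h3, h4, rfl⟩ := (hV κ hκ _).1 hσ
      exact ⟨τ₁, τ₂, h2, h3, h4, rfl⟩
  · obtain ⟨e₁, e₂, h2⟩ := hg i
    rw [hy', ← h.red h2]
    exact ((Par.refl _).scl (Cfg.nrm_ne V ξ.cfg (g i)) (h.cf_ne h2)).red (p := plV V)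
      (Cfg.pr_nrm (nz_cfg ξ) V (g i)) (h.prim h2)

end Crest.Agent.X262.Gen42
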